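import Vale.Agent.Lib.P193.Main

/-!
# P193: the Boone-Higman conjecture

Every finitely generated group with decidable word problem embeds in a finitely presented simple
group.
-/

namespace Vale.Agent.Results.P193.BooneHigman

/-- Every group `G` generated by finitely many elements `x 0, …, x (n - 1)`, for which it is
decidable whether a word in the generators and their inverses represents the identity, embeds in a
finitely presented simple group `H`. A word is a list of pairs `(i, b)`, where `(i, true)` stands for
`x i` and `(i, false)` for its inverse; its value in `G` is `FreeGroup.lift x (FreeGroup.mk w)`. -/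
theorem result {G : Type*} [Group G] {n : ℕ} (x : Fin n → G)
    (hx : Subgroup.closure (Set.range x) = ⊤)
    (hwp : ComputablePred fun w : List (Fin n × Bool) => FreeGroup.lift x (FreeGroup.mk w) = 1) :
    ∃ (H : Type) (_ : Group H), Group.IsFinitelyPresented H ∧ IsSimpleGroup H ∧
      ∃ f : G →* H, Function.Injective f := by
  refine _root_.P193.Asm.boone_higman x hx ?_
  have h : (fun w : List (Fin n × Bool) => _root_.P193.Asm.ev x w = 1)
      = fun w => FreeGroup.lift x (FreeGroup.mk w) = 1 := by
    funext w
    rw [FreeGroup.lift_mk]
    have e : _root_.P193.Asm.ev x w = (w.map fun a => bif a.2 then x a.1 else (x a.1)⁻¹).prod := by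
      unfold _root_.P193.Asm.ev
      congr 1
      refine List.map_congr_left fun a _ => ?_
      cases a.2 <;> rfl
    rw [e]
  rw [h]
  exact hwp

end Vale.Agent.Results.P193.BooneHigman
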