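import Vale.Agent.Lib.P193.Main

/-!
# P193: the Boone-Higman conjecture, with the decision algorithm as a code

The word problem is solved by a code of a partial recursive function (a program), and the simple
group is the quotient of a free group of finite rank by the normal closure of a finite set.
-/

namespace Vale.Agent.Results.P193.EmbedsInSimple

universe u

/-- The element of `G` represented by a word in `S ∪ S⁻¹`, where the finite set `S` is listed as
`s 0, …, s (n - 1)`: a word is a list of letters, the letter `(i, true)` stands for `s i` and the
letter `(i, false)` for its inverse. -/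
def value {G : Type u} [Group G] {n : ℕ} (s : Fin n → G) : List (Fin n × Bool) → G
  | [] => 1
  | (i, true) :: w => s i * value s w
  | (i, false) :: w => (s i)⁻¹ * value s w

/-- Let `G` be a group generated by a finite set `S`. The word problem for `G` asks, given a word in
`S ∪ S⁻¹`, whether it represents the identity of `G`; it is decidable if a single algorithm `c`
answers this correctly for every word: on the input `w` (coded by a natural number) the program `c`
halts with output `1` if `w` represents the identity, and with output `0` if it does not. -/
def FinitelyGeneratedWithDecidableWordProblem (G : Type u) [Group G] : Prop :=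
  ∃ (n : ℕ) (s : Fin n → G), (∀ g : G, ∃ w : List (Fin n × Bool), value s w = g) ∧
    ∃ c : Nat.Partrec.Code, ∀ w : List (Fin n × Bool),
      (value s w = 1 → c.eval (Encodable.encode w) = Part.some 1) ∧
      (value s w ≠ 1 → c.eval (Encodable.encode w) = Part.some 0)

/-- Every finitely generated group `G` with decidable word problem embeds in a finitely presented
simple group: there are finitely many generators, a finite set `R` of relators such that the quotient
`F / ⟪R⟫` of the free group is simple, and a subgroup `K` of this quotient isomorphic to `G`. -/
theorem result (G : Type u) [Group G] (hG : FinitelyGeneratedWithDecidableWordProblem G) :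
    ∃ (m : ℕ) (R : Finset (FreeGroup (Fin m))),
      IsSimpleGroup (FreeGroup (Fin m) ⧸ Subgroup.normalClosure (R : Set (FreeGroup (Fin m)))) ∧
      ∃ K : Subgroup (FreeGroup (Fin m) ⧸ Subgroup.normalClosure (R : Set (FreeGroup (Fin m)))),
        Nonempty (G ≃* K) := by
  classical
  obtain ⟨n, s, hgen, c, hc⟩ := hG
  have hval : ∀ w : List (Fin n × Bool), _root_.P193.Asm.ev s w = value s w := by
    intro w
    induction w with
    | nil => simp [_root_.P193.Asm.ev, value]
    | cons a w ih =>
      have h : _root_.P193.Asm.ev s (a :: w)
          = (bif a.2 then s a.1 else (s a.1)⁻¹) * _root_.P193.Asm.ev s w := by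
        simp [_root_.P193.Asm.ev]
        cases a.2 <;> rfl
      obtain ⟨i, b⟩ := a
      rw [h, ih]
      cases b <;> rfl
  have hx : Subgroup.closure (Set.range s) = ⊤ := by
    rw [eq_top_iff]
    rintro g -
    obtain ⟨w, rfl⟩ := hgen g
    induction w with
    | nil => exact one_mem _
    | cons a w ih =>
      obtain ⟨i, b⟩ := a
      have h1 : s i ∈ Subgroup.closure (Set.range s) := Subgroup.subset_closure ⟨i, rfl⟩
      cases b
      · exact mul_mem (inv_mem h1) ih
      · exact mul_mem h1 ih
  have hwp : ComputablePred fun w : List (Fin n × Bool) => _root_.P193.Asm.ev s w = 1 := by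
    have hf : Computable fun w : List (Fin n × Bool) => if value s w = 1 then 1 else 0 := by
      have h1 : Partrec fun w : List (Fin n × Bool) => c.eval (Encodable.encode w) :=
        Nat.Partrec.Code.eval_part.comp (Computable.const c) Computable.encode
      refine h1.of_eq fun w => ?_
      change c.eval (Encodable.encode w) = Part.some (if value s w = 1 then 1 else 0)
      by_cases h : value s w = 1
      · rw [if_pos h]
        exact (hc w).1 h
      · rw [if_neg h]
        exact (hc w).2 h
    rw [ComputablePred.computable_iff]
    refine ⟨fun w => decide ((if value s w = 1 then 1 else 0) = 1), ?_, ?_⟩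
    · exact (Primrec.eq.decide.to_comp).comp hf (Computable.const 1)
    · funext w
      rw [hval]
      by_cases h : value s w = 1 <;> simp [h]
  obtain ⟨H, hH, hfp, hsimple, f, hf⟩ := _root_.P193.Asm.boone_higman s hx hwp
  obtain ⟨m, R, hR, ⟨e⟩⟩ := Group.IsFinitelyPresented.exists_mulEquiv_presentedGroup (G := H)
  obtain ⟨R, rfl⟩ : ∃ R' : Finset (FreeGroup (Fin m)), (R' : Set (FreeGroup (Fin m))) = R :=
    ⟨hR.toFinset, hR.coe_toFinset⟩
  have e' : H ≃* FreeGroup (Fin m) ⧸ Subgroup.normalClosure (R : Set (FreeGroup (Fin m))) := e
  have : Nontrivial (FreeGroup (Fin m) ⧸ Subgroup.normalClosure (R : Set (FreeGroup (Fin m)))) :=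
    e'.symm.surjective.nontrivial
  refine ⟨m, R, IsSimpleGroup.isSimpleGroup_of_surjective e'.toMonoidHom e'.surjective,
    (e'.toMonoidHom.comp f).range, ⟨MonoidHom.ofInjective (e'.injective.comp hf)⟩⟩

end Vale.Agent.Results.P193.EmbedsInSimple
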