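import Vale.Agent.Lib.P193.Main

/-!
# P193: the Boone-Higman conjecture with explicit words and explicit finite presentations

A second formulation: the word problem is solved by a computable Boolean function on words, and the
finitely presented simple group is given by finitely many generators and a finite set of relators.
-/

namespace Vale.Agent.Results.P193.SimplePresentation

/-- Let `G` be a group in which every element is the value of a word in `s 0, …, s (n - 1)` and their
inverses (a word is a list of letters `(i, b)`, the letter `(i, true)` stands for `s i` and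
`(i, false)` for its inverse), and let `d` be a computable function which decides whether the value
of a word is `1`.  Then there are a number `m` and a finite set `R` of elements of the free group on
`m` generators such that the group `⟨x_0, …, x_(m-1) | R⟩` is simple and contains a copy of `G`. -/
theorem result {G : Type*} [Group G] (n : ℕ) (s : Fin n → G)
    (hgen : ∀ g : G, ∃ w : List (Fin n × Bool),
      (w.map fun a => if a.2 = true then s a.1 else (s a.1)⁻¹).prod = g)
    (d : List (Fin n × Bool) → Bool) (hcomp : Computable d)
    (hdec : ∀ w : List (Fin n × Bool),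
      d w = true ↔ (w.map fun a => if a.2 = true then s a.1 else (s a.1)⁻¹).prod = 1) :
    ∃ (m : ℕ) (R : Finset (FreeGroup (Fin m))),
      (∃ h : PresentedGroup (R : Set (FreeGroup (Fin m))), h ≠ 1) ∧
      (∀ N : Subgroup (PresentedGroup (R : Set (FreeGroup (Fin m)))),
        N.Normal → N = ⊥ ∨ N = ⊤) ∧
      ∃ f : G →* PresentedGroup (R : Set (FreeGroup (Fin m))), Function.Injective f := by
  have hx : Subgroup.closure (Set.range s) = ⊤ := by
    rw [eq_top_iff]
    intro g _
    obtain ⟨w, rfl⟩ := hgen g
    refine Subgroup.list_prod_mem _ ?_
    intro y hy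
    obtain ⟨a, -, rfl⟩ := List.mem_map.1 hy
    have h1 : s a.1 ∈ Subgroup.closure (Set.range s) := Subgroup.subset_closure ⟨a.1, rfl⟩
    by_cases ha : a.2 = true
    · rw [if_pos ha]
      exact h1
    · rw [if_neg ha]
      exact inv_mem h1
  have hwp : ComputablePred fun w : List (Fin n × Bool) => _root_.P193.Asm.ev s w = 1 := by
    rw [ComputablePred.computable_iff]
    refine ⟨d, hcomp, ?_⟩
    funext w
    exact propext (hdec w).symm
  obtain ⟨H, hH, hfp, hsimple, f, hf⟩ := _root_.P193.Asm.boone_higman s hx hwp
  obtain ⟨m, R, hR, ⟨e⟩⟩ := Group.IsFinitelyPresented.exists_mulEquiv_presentedGroup (G := H)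
  obtain ⟨R, rfl⟩ : ∃ R' : Finset (FreeGroup (Fin m)), (R' : Set (FreeGroup (Fin m))) = R :=
    ⟨hR.toFinset, hR.coe_toFinset⟩
  refine ⟨m, R, ?_, fun N hN => ?_, e.toMonoidHom.comp f, e.injective.comp hf⟩
  · obtain ⟨h, hh⟩ := exists_ne (1 : H)
    refine ⟨e h, fun h1 => hh ?_⟩
    exact e.injective (by rw [h1, map_one])
  · have hN' : (N.comap e.toMonoidHom).Normal := hN.comap _
    rcases hsimple.eq_bot_or_eq_top_of_normal _ hN' with h | h
    · left
      rw [eq_bot_iff]
      intro y hy
      have h2 : e.symm y ∈ N.comap e.toMonoidHom := by
        change e (e.symm y) ∈ N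
        rwa [MulEquiv.apply_symm_apply]
      rw [h, Subgroup.mem_bot] at h2
      rw [Subgroup.mem_bot, ← MulEquiv.apply_symm_apply e y, h2, map_one]
    · right
      rw [eq_top_iff]
      intro y _
      have h2 : e.symm y ∈ N.comap e.toMonoidHom := by
        rw [h]
        exact Subgroup.mem_top _
      have h3 : e (e.symm y) ∈ N := h2
      rwa [MulEquiv.apply_symm_apply] at h3

end Vale.Agent.Results.P193.SimplePresentation
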